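import Mathlib

/-!
# P236: the cobar complex of a coalgebra with unit, and the reduced powers at the prime 3

`C` is a module over a commutative ring `K` with a linear map `Δ : C → C ⊗ C` and an element `e`
(the unit of the coalgebra).  The cobar complex is the tensor algebra `T(C)` with the differential
`d` that is given on letters by `d [x] = [e|x] + [x|e] - ∑ [x'|x'']` and is extended by
`d (u v) = d u * v + (-1)^|u| u * d v`.  Its part of degree `s` is spanned by the words with `s`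
letters.
-/

namespace Vale.Agent.P236

open scoped TensorProduct

section Cobar

variable {K C : Type*} [CommRing K] [AddCommGroup C] [Module K C]

/-- the letter `[x]` -/
noncomputable def let1 (K : Type*) {C : Type*} [CommRing K] [AddCommGroup C] [Module K C]
    (x : C) : TensorAlgebra K C := TensorAlgebra.ι K x

/-- `x ⊗ y ↦ [x|y]` -/
noncomputable def two (K C : Type*) [CommRing K] [AddCommGroup C] [Module K C] :
    C ⊗[K] C →ₗ[K] TensorAlgebra K C :=
  TensorProduct.lift ((LinearMap.mul K (TensorAlgebra K C)).compl₁₂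
    (TensorAlgebra.ι K) (TensorAlgebra.ι K))

/-- the differential on letters: `[x] ↦ [e|x] + [x|e] - ∑ [x'|x'']` -/
noncomputable def dOne (Δ : C →ₗ[K] C ⊗[K] C) (e : C) : C →ₗ[K] TensorAlgebra K C :=
  (LinearMap.mulLeft K (TensorAlgebra.ι K e)).comp (TensorAlgebra.ι K) +
    (LinearMap.mulRight K (TensorAlgebra.ι K e)).comp (TensorAlgebra.ι K) - (two K C).comp Δ

/-- the sign: `-1` on letters, multiplicative -/
noncomputable def sg (K C : Type*) [CommRing K] [AddCommGroup C] [Module K C] :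
    TensorAlgebra K C →ₐ[K] TensorAlgebra K C :=
  TensorAlgebra.lift K (-(TensorAlgebra.ι K))

/-- auxiliary algebra map `w ↦ (sg w, d w; 0, w)` -/
noncomputable def dMat (Δ : C →ₗ[K] C ⊗[K] C) (e : C) :
    TensorAlgebra K C →ₐ[K] Matrix (Fin 2) (Fin 2) (TensorAlgebra K C) :=
  TensorAlgebra.lift K
    { toFun := fun x => !![-(TensorAlgebra.ι K x), dOne Δ e x; 0, TensorAlgebra.ι K x]
      map_add' := by
        intro x y
        ext i j
        fin_cases i <;> fin_cases j <;> simp [add_comm]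
      map_smul' := by
        intro c x
        ext i j
        fin_cases i <;> fin_cases j <;> simp }

/-- the differential of the cobar complex -/
noncomputable def dCob (Δ : C →ₗ[K] C ⊗[K] C) (e : C) :
    TensorAlgebra K C →ₗ[K] TensorAlgebra K C where
  toFun w := dMat Δ e w 0 1
  map_add' u v := by simp
  map_smul' c u := by simp

/-- the words with `s` letters -/
def deg (K C : Type*) [CommRing K] [AddCommGroup C] [Module K C] (s : ℕ) :
    Submodule K (TensorAlgebra K C) :=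
  (LinearMap.range (TensorAlgebra.ι K : C →ₗ[K] TensorAlgebra K C)) ^ s

/-- `z` is a coboundary in degree `s + 1`: `z = d w` for some `w` of degree `s` -/
def IsCob (Δ : C →ₗ[K] C ⊗[K] C) (e : C) (s : ℕ) (z : TensorAlgebra K C) : Prop :=
  ∃ w ∈ deg K C s, dCob Δ e w = z

variable (Δ : C →ₗ[K] C ⊗[K] C) (e : C)

@[simp] theorem two_tmul (x y : C) :
    two K C (x ⊗ₜ[K] y) = TensorAlgebra.ι K x * TensorAlgebra.ι K y := by
  simp [two]

theorem dOne_apply (x : C) : dOne Δ e x =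
    TensorAlgebra.ι K e * TensorAlgebra.ι K x + TensorAlgebra.ι K x * TensorAlgebra.ι K e -
      two K C (Δ x) := by
  simp [dOne]

@[simp] theorem sg_ι (x : C) : sg K C (TensorAlgebra.ι K x) = -(TensorAlgebra.ι K x) := by
  simp [sg]

theorem dMat_ι (x : C) : dMat Δ e (TensorAlgebra.ι K x) =
    !![-(TensorAlgebra.ι K x), dOne Δ e x; 0, TensorAlgebra.ι K x] := by
  simp [dMat]

theorem dMat_form (w : TensorAlgebra K C) :
    dMat Δ e w 0 0 = sg K C w ∧ dMat Δ e w 1 0 = 0 ∧ dMat Δ e w 1 1 = w := by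
  induction w using TensorAlgebra.induction with
  | algebraMap r => 
    refine ⟨?_, ?_, ?_⟩
    · simp [Matrix.algebraMap_matrix_apply]
    · simp [Matrix.algebraMap_matrix_apply]
    · simp [Matrix.algebraMap_matrix_apply]
  | ι x => simp [dMat_ι]
  | mul a b ha hb =>
    obtain ⟨h1, h2, h3⟩ := ha
    obtain ⟨k1, k2, k3⟩ := hb
    simp only [map_mul, Matrix.mul_apply, Fin.sum_univ_two, h1, h2, h3, k1, k2, k3]
    simp
  | add a b ha hb =>
    obtain ⟨h1, h2, h3⟩ := ha
    obtain ⟨k1, k2, k3⟩ := hb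
    simp [h1, h2, h3, k1, k2, k3]

/-- the graded Leibniz rule -/
theorem dCob_mul (u v : TensorAlgebra K C) :
    dCob Δ e (u * v) = dCob Δ e u * v + sg K C u * dCob Δ e v := by
  have h1 := (dMat_form Δ e u).1
  have h3 := (dMat_form Δ e v).2.2
  change dMat Δ e (u * v) 0 1 = dMat Δ e u 0 1 * v + sg K C u * dMat Δ e v 0 1
  rw [map_mul, Matrix.mul_apply, Fin.sum_univ_two, h1, h3, add_comm]

@[simp] theorem dCob_ι (x : C) : dCob Δ e (TensorAlgebra.ι K x) = dOne Δ e x := by
  change dMat Δ e (TensorAlgebra.ι K x) 0 1 = _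
  rw [dMat_ι]; simp

@[simp] theorem dCob_algebraMap (r : K) :
    dCob Δ e (algebraMap K (TensorAlgebra K C) r) = 0 := by
  change dMat Δ e (algebraMap K _ r) 0 1 = _
  simp [Matrix.algebraMap_matrix_apply]

@[simp] theorem dCob_one : dCob Δ e (1 : TensorAlgebra K C) = 0 := by
  simpa using dCob_algebraMap Δ e (1 : K)

variable {C' : Type*} [AddCommGroup C'] [Module K C'] (Δ' : C' →ₗ[K] C' ⊗[K] C') (e' : C')

/-- `f` is a map of coalgebras with unit -/
structure CoMap (Δ : C →ₗ[K] C ⊗[K] C) (e : C) (Δ' : C' →ₗ[K] C' ⊗[K] C') (e' : C')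
    (f : C →ₗ[K] C') : Prop where
  /-- `f e = e'` -/
  unit : f e = e'
  /-- `(f ⊗ f) (Δ x) = Δ' (f x)` -/
  comul : ∀ x, TensorProduct.map f f (Δ x) = Δ' (f x)

/-- the map of tensor algebras `[x|y|..] ↦ [f x|f y|..]` -/
noncomputable def mapT (f : C →ₗ[K] C') : TensorAlgebra K C →ₐ[K] TensorAlgebra K C' :=
  TensorAlgebra.lift K ((TensorAlgebra.ι K).comp f)

@[simp] theorem mapT_ι (f : C →ₗ[K] C') (x : C) :
    mapT f (TensorAlgebra.ι K x) = TensorAlgebra.ι K (f x) := by
  simp [mapT]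

theorem map_two (f : C →ₗ[K] C') (t : C ⊗[K] C) :
    mapT f (two K C t) = two K C' (TensorProduct.map f f t) := by
  induction t with
  | zero => simp
  | tmul x y => simp
  | add x y hx hy => simp [hx, hy]

theorem map_sg (f : C →ₗ[K] C') (w : TensorAlgebra K C) :
    mapT f (sg K C w) = sg K C' (mapT f w) := by
  induction w using TensorAlgebra.induction with
  | algebraMap r => simp
  | ι x => simp
  | mul a b ha hb => simp [ha, hb]
  | add a b ha hb => simp [ha, hb]

/-- functoriality of the cobar complex -/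
theorem map_dCob {Δ : C →ₗ[K] C ⊗[K] C} {e : C} {Δ' : C' →ₗ[K] C' ⊗[K] C'} {e' : C'}
    {f : C →ₗ[K] C'} (hf : CoMap Δ e Δ' e' f) (w : TensorAlgebra K C) :
    mapT f (dCob Δ e w) = dCob Δ' e' (mapT f w) := by
  induction w using TensorAlgebra.induction with
  | algebraMap r => simp
  | ι x =>
    rw [dCob_ι, mapT_ι, dCob_ι, dOne_apply, dOne_apply]
    simp only [map_sub, map_add, map_mul, mapT_ι, map_two, hf.unit, hf.comul]
  | mul a b ha hb => simp only [map_mul, dCob_mul, map_add, ha, hb, map_sg]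
  | add a b ha hb => simp [ha, hb]

theorem map_deg (f : C →ₗ[K] C') {s : ℕ} {w : TensorAlgebra K C} (hw : w ∈ deg K C s) :
    mapT f w ∈ deg K C' s := by
  have h : (deg K C s).map (mapT f).toLinearMap ≤ deg K C' s := by
    unfold deg
    rw [Submodule.map_pow]
    refine pow_le_pow_left' ?_ s
    rintro _ ⟨_, ⟨x, rfl⟩, rfl⟩
    exact ⟨f x, by simp⟩
  exact h ⟨w, hw, rfl⟩

theorem IsCob.map {Δ : C →ₗ[K] C ⊗[K] C} {e : C} {Δ' : C' →ₗ[K] C' ⊗[K] C'} {e' : C'}
    {f : C →ₗ[K] C'} (hf : CoMap Δ e Δ' e' f) {s : ℕ} {z : TensorAlgebra K C}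
    (hz : IsCob Δ e s z) : IsCob Δ' e' s (mapT f z) := by
  obtain ⟨w, hw, rfl⟩ := hz
  exact ⟨_, map_deg f hw, (map_dCob hf w).symm⟩

end Cobar

/-! ### the reduced powers at the prime 3 -/

/-- `P_* = F_3[ξ_1, ξ_2, ...]`, `X n = ξ_{n+1}` -/
abbrev PS : Type := MvPolynomial ℕ (ZMod 3)

/-- `ξ_n`, with `ξ_0 = 1` -/
noncomputable def xi : ℕ → PS
  | 0 => 1
  | n + 1 => MvPolynomial.X n

/-- the coproduct of `P_*`: the algebra map with `Δ ξ_n = ∑_{i ≤ n} ξ_{n-i}^(3^i) ⊗ ξ_i` -/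
noncomputable def ΔP : PS →ₐ[ZMod 3] PS ⊗[ZMod 3] PS :=
  MvPolynomial.aeval fun n =>
    ∑ i ∈ Finset.range (n + 2), (xi (n + 1 - i) ^ 3 ^ i) ⊗ₜ[ZMod 3] (xi i)

/-- the Kervaire cochain `b_j = ∑_{0<i<3} (1/3) binom(3,i) [ξ_1^(i 3^j) | ξ_1^((3-i) 3^j)]` -/
noncomputable def bP (j : ℕ) : TensorAlgebra (ZMod 3) PS :=
  let1 (ZMod 3) (xi 1 ^ 3 ^ j) * let1 (ZMod 3) (xi 1 ^ (2 * 3 ^ j)) +
    let1 (ZMod 3) (xi 1 ^ (2 * 3 ^ j)) * let1 (ZMod 3) (xi 1 ^ 3 ^ j)

/-- the cochain `h_j = [ξ_1^(3^j)]` -/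
noncomputable def hP (j : ℕ) : TensorAlgebra (ZMod 3) PS := let1 (ZMod 3) (xi 1 ^ 3 ^ j)

end Vale.Agent.P236
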